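import Vale.Agent.P302.Bdl.B5

namespace Vale.Agent.Results.P302.Gap16688

open Vale.Agent.P302

/-- For every sufficiently large `n` there is a bin packing instance with `OPT = n` and
`OPT - LP ≥ 1043 / 625 = 1.6688 > 5 / 3`. -/
theorem result : ∃ n₀ : ℕ, ∀ n : ℕ, n₀ ≤ n → ∃ I : List ℚ, IsInstance I ∧ OPT I = n ∧
    (1043 / 625 : ℝ) ≤ (OPT I : ℝ) - LP I :=
  DM4.final

end Vale.Agent.Results.P302.Gap16688
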